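import Vale.Agent.P062.Zero.All

/-!
P062: Maker wins the achievement game for Snaky on the initially empty planar board.
-/

namespace Vale.Agent.Results.P062.MakerWinsPlane

open Vale.Agent.P062 Vale.Agent.P062.Cert

/-- The root row claims the first cell and needs no cell of Maker. -/
theorem root_own : (Zero.get 7298).own = 0 := by decide +kernel

theorem result : Vale.Agent.P062.MakerWins := by
  refine makerWinsFrom_of_row Zero.checked Zero.root_lt ?_ ?_ ?_
  · rw [root_own]
    simp [Cert.setOf]
  · exact Finset.disjoint_empty_right _
  · exact Finset.disjoint_empty_right _

end Vale.Agent.Results.P062.MakerWinsPlane
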